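import Mathlib

/-!
# Definitions for the Park and Pham fragment argument (finite product measures)
-/

namespace Vale.Agent.KK.PP

open Finset

section families

variable {X : Type*} [Fintype X] [DecidableEq X]

/-- Weight of the set `W` under the product measure with parameter `p` on the subsets of `X`:
every element is present independently with probability `p`. -/
noncomputable def bern (p : ℝ) (W : Finset X) : ℝ :=
  p ^ W.card * (1 - p) ^ (Fintype.card X - W.card)

/-- `W` contains a member of the family `Fam`. -/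
def Hits (Fam : Finset (Finset X)) (W : Finset X) : Prop := ∃ S ∈ Fam, S ⊆ W

/-- Every member of `Fam` contains a member of `Cov`. -/
def Covers (Cov Fam : Finset (Finset X)) : Prop := ∀ S ∈ Fam, ∃ T ∈ Cov, T ⊆ S

omit [Fintype X] in
theorem exists_frag (Fam : Finset (Finset X)) (W : Finset X) :
    ∃ fr : Finset X → Finset X, ∀ S ∈ Fam,
      (∃ S' ∈ Fam, S' ⊆ S ∪ W ∧ fr S = S' \ W) ∧
      (∀ S'' ∈ Fam, S'' ⊆ S ∪ W → (fr S).card ≤ (S'' \ W).card) := by
  classical
  have key : ∀ S ∈ Fam, ∃ T : Finset X, (∃ S' ∈ Fam, S' ⊆ S ∪ W ∧ T = S' \ W) ∧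
      (∀ S'' ∈ Fam, S'' ⊆ S ∪ W → T.card ≤ (S'' \ W).card) := by
    intro S hS
    have hne : (Fam.filter (fun S' => S' ⊆ S ∪ W)).Nonempty :=
      ⟨S, mem_filter.2 ⟨hS, subset_union_left⟩⟩
    obtain ⟨S', hS', hmin⟩ := exists_min_image _ (fun S' : Finset X => (S' \ W).card) hne
    rw [mem_filter] at hS'
    exact ⟨S' \ W, ⟨S', hS'.1, hS'.2, rfl⟩, fun S'' h1 h2 => hmin S'' (mem_filter.2 ⟨h1, h2⟩)⟩
  refine ⟨fun S => if h : S ∈ Fam then (key S h).choose else ∅, fun S hS => ?_⟩
  simp only [dif_pos hS]
  exact (key S hS).choose_spec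

/-- A minimum fragment: for `S` in `Fam`, `frag Fam W S = S' \ W` for a member `S'` of `Fam`
inside `S ∪ W` with `S' \ W` of least size. -/
noncomputable def frag (Fam : Finset (Finset X)) (W : Finset X) : Finset X → Finset X :=
  (exists_frag Fam W).choose

omit [Fintype X] in
theorem frag_spec (Fam : Finset (Finset X)) (W : Finset X) : ∀ S ∈ Fam,
    (∃ S' ∈ Fam, S' ⊆ S ∪ W ∧ frag Fam W S = S' \ W) ∧
    (∀ S'' ∈ Fam, S'' ⊆ S ∪ W → (frag Fam W S).card ≤ (S'' \ W).card) :=
  (exists_frag Fam W).choose_spec

/-- The fragments of size at most `τ`. -/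
noncomputable def smallFrags (Fam : Finset (Finset X)) (W : Finset X) (τ : ℕ) :
    Finset (Finset X) :=
  (Fam.image (frag Fam W)).filter (fun T => T.card ≤ τ)

/-- The fragments of size more than `τ`. -/
noncomputable def largeFrags (Fam : Finset (Finset X)) (W : Finset X) (τ : ℕ) :
    Finset (Finset X) :=
  (Fam.image (frag Fam W)).filter (fun T => τ < T.card)

/-- The error of one halving round on an `m`-bounded family. -/
noncomputable def roundErr (x : ℝ) (m : ℕ) : ℝ :=
  ∑ t ∈ Finset.Ioc (m / 2) m, (m.choose t : ℝ) * x ^ t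

/-- The total error of `r` halving rounds starting from an `m`-bounded family. -/
noncomputable def errSum (x : ℝ) : ℕ → ℕ → ℝ
  | 0, _ => 0
  | r + 1, m => roundErr x m + errSum x r (m / 2)

end families

section graphs

/-- The potential edges of a graph on `Fin n`. -/
abbrev Slot (n : ℕ) : Type := {e : Sym2 (Fin n) // ¬ e.IsDiag}

open Classical in
/-- The edge set of the image of `H` under the permutation `σ`. -/
noncomputable def copyEdges {n : ℕ} (H : SimpleGraph (Fin n)) (σ : Equiv.Perm (Fin n)) :
    Finset (Slot n) :=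
  univ.filter (fun e => (e : Sym2 (Fin n)) ∈ (H.map σ.toEmbedding).edgeSet)

open Classical in
/-- The edge sets of all images of `H` under permutations of the vertex set. -/
noncomputable def copyFamily {n : ℕ} (H : SimpleGraph (Fin n)) : Finset (Finset (Slot n)) :=
  univ.image (copyEdges H)

/-- The graph on `Fin n` with edge set `W`. -/
def graphOf {n : ℕ} (W : Finset (Slot n)) : SimpleGraph (Fin n) :=
  SimpleGraph.fromEdgeSet ((fun e : Slot n => (e : Sym2 (Fin n))) '' (W : Set (Slot n)))

end graphs

end Vale.Agent.KK.PP
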