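import Vale.Agent.KK.FH.Thresholds
import Vale.Agent.Lib.P064.helper76.Bern
import Vale.Agent.Lib.P064.helper93.FragCount
import Vale.Agent.Lib.P064.helper36.ParkPham
import Vale.Agent.Lib.P064.helper32.CopyFamily
import Vale.Agent.Lib.P064.helper76.GraphSum

/-!
# The threshold for containing a forest is at most a constant times its expectation threshold
times `log n`
-/

namespace Vale.Agent.KK

open SimpleGraph Finset
open Vale.Agent.KK.PP
open Vale.Agent.Lib.P064

/-- Passing from expected counts at least `1/2` at density `p` to expected counts at least `1`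
at density `2 p`. -/
theorem subgraphsExpected_two_mul {n : ℕ} (H : SimpleGraph (Fin n)) (p : ℝ) (_hp0 : 0 ≤ p)
    (hp : ∀ H' : H.Subgraph, (1 : ℝ) / 2 ≤
      ((⊤ : SimpleGraph (Fin n)).copyCount H'.coe : ℝ) * p ^ H'.edgeSet.ncard) :
    SubgraphsExpected n H (2 * p) := by
  intro K
  have h1 : (1 : ℝ) ≤ ((⊤ : SimpleGraph (Fin n)).copyCount K.coe : ℝ) := by
    exact_mod_cast one_le_copyCount_top_coe K
  rcases Nat.eq_zero_or_pos K.edgeSet.ncard with h0 | hpos
  · rw [h0, pow_zero, mul_one]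
    exact h1
  · have h2 := hp K
    have h3 : (2 : ℝ) ≤ 2 ^ K.edgeSet.ncard := by
      calc (2 : ℝ) = 2 ^ 1 := (pow_one 2).symm
        _ ≤ 2 ^ K.edgeSet.ncard := pow_le_pow_right₀ (by norm_num) hpos
    have h4 : 0 ≤ ((⊤ : SimpleGraph (Fin n)).copyCount K.coe : ℝ) * p ^ K.edgeSet.ncard := by
      positivity
    rw [mul_pow]
    calc (1 : ℝ) ≤ 2 * (((⊤ : SimpleGraph (Fin n)).copyCount K.coe : ℝ) * p ^ K.edgeSet.ncard) := by
          linarith
      _ ≤ 2 ^ K.edgeSet.ncard *
            (((⊤ : SimpleGraph (Fin n)).copyCount K.coe : ℝ) * p ^ K.edgeSet.ncard) :=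
          mul_le_mul_of_nonneg_right h3 h4
      _ = ((⊤ : SimpleGraph (Fin n)).copyCount K.coe : ℝ) *
            (2 ^ K.edgeSet.ncard * p ^ K.edgeSet.ncard) := by ring

/-- The labelled form of the forest-host inequality, density capped at one. -/
theorem forestHost_labelled_le_min {n : ℕ} {H : SimpleGraph (Fin n)} {q : ℝ} (hH : H.IsAcyclic)
    (hq0 : 0 ≤ q) (h : SubgraphsExpected n H q) (W : Type) [Fintype W] (F : SimpleGraph W) :
    (H.labelledCopyCount F : ℝ) ≤
      (n.descFactorial (Fintype.card W) : ℝ) * (min 1 (100000000 * q)) ^ F.edgeSet.ncard := by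
  classical
  by_cases hq : 100000000 * q ≤ 1
  · rw [min_eq_right hq]
    have key := labelled_of_support H F ((100000000 * q) ^ F.edgeSet.ncard) ?_
    · rw [Fintype.card_fin] at key; exact key
    rw [Fintype.card_fin, ← ncard_edgeSet_induce_support F]
    exact fh_labelled_main hH hq0 h F.support (F.induce F.support)
      (induce_support_no_isolated F)
  · rw [not_le] at hq
    rw [min_eq_left hq.le, one_pow, mul_one]
    have h1 := labelled_le_top H F
    rw [labelledCopyCount_top, Fintype.card_fin] at h1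
    exact_mod_cast h1

/-- The probability that `G(n,p)` contains a copy of `H`, as a finite sum over graphs. -/
noncomputable def containProb {n : ℕ} (H : SimpleGraph (Fin n)) (p : ℝ) : ℝ :=
  ∑ G : SimpleGraph (Fin n), Set.indicator {G | H ⊑ G}
    (fun G => p ^ G.edgeSet.ncard * (1 - p) ^ (n.choose 2 - G.edgeSet.ncard)) G

open Classical in
theorem containProb_eq {n : ℕ} (H : SimpleGraph (Fin n)) (p : ℝ) :
    containProb H p =
      ∑ W : Finset (Slot n), bern p W * (if Hits (copyFamily H) W then 1 else 0) := by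
  have h1 := sum_graphs_eq (n := n) p (fun G => if H ⊑ G then 1 else 0)
  have h2 : ∑ W : Finset (Slot n), bern p W * (if Hits (copyFamily H) W then (1 : ℝ) else 0) =
      ∑ W : Finset (Slot n), bern p W * (if H ⊑ graphOf W then (1 : ℝ) else 0) := by
    apply Finset.sum_congr rfl
    intro W _
    rw [if_congr (hits_copyFamily_iff H W) rfl rfl]
  rw [h2, ← h1, containProb]
  apply Finset.sum_congr rfl
  intro G _
  by_cases hG : H ⊑ G
  · rw [Set.indicator_of_mem (by exact hG), if_pos hG, mul_one]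
  · rw [Set.indicator_of_notMem (by exact hG), if_neg hG, mul_zero]

theorem copyFamily_nonempty {n : ℕ} (H : SimpleGraph (Fin n)) : (copyFamily H).Nonempty := by
  classical
  exact ⟨copyEdges H 1, by rw [copyFamily]; exact mem_image_of_mem _ (mem_univ _)⟩

open Classical in
theorem containProb_ge_single {n : ℕ} (H : SimpleGraph (Fin n)) (p : ℝ) (hp0 : 0 ≤ p)
    (hp1 : p ≤ 1) (W : Finset (Slot n)) (hW : Hits (copyFamily H) W) :
    bern p W ≤ containProb H p := by
  rw [containProb_eq]
  have h1 : bern p W = bern p W * (if Hits (copyFamily H) W then 1 else 0) := by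
    rw [if_pos hW, mul_one]
  rw [h1]
  apply Finset.single_le_sum (f := fun W : Finset (Slot n) =>
    bern p W * (if Hits (copyFamily H) W then (1 : ℝ) else 0)) _ (mem_univ W)
  intro V _
  have := bern_nonneg p hp0 hp1 V
  positivity

theorem containProb_one {n : ℕ} (H : SimpleGraph (Fin n)) : 1 ≤ containProb H 1 := by
  obtain ⟨S, hS⟩ := copyFamily_nonempty H
  have h := containProb_ge_single H 1 zero_le_one le_rfl univ ⟨S, hS, subset_univ _⟩
  have e : bern (1 : ℝ) (univ : Finset (Slot n)) = 1 := by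
    simp [bern]
  rwa [e] at h

theorem containProb_zero {n : ℕ} (H : SimpleGraph (Fin n)) (hH : H.edgeSet.ncard = 0) :
    1 ≤ containProb H 0 := by
  obtain ⟨S, hS⟩ := copyFamily_nonempty H
  have hS0 : S = ∅ := by
    have := copyFamily_card H S hS
    rw [hH] at this
    exact card_eq_zero.1 this
  have h := containProb_ge_single H 0 le_rfl zero_le_one ∅ ⟨S, hS, by rw [hS0]⟩
  have e : bern (0 : ℝ) (∅ : Finset (Slot n)) = 1 := by
    simp [bern]
  rwa [e] at h

theorem log_round_bound {n : ℕ} (hn : 2 ≤ n) (m : ℕ) (hm : m ≤ n ^ 2) :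
    ((Nat.log 2 m + 1 : ℕ) : ℝ) ≤ 4.33 * Real.log n := by
  have hl2 : (0.6931471803 : ℝ) < Real.log 2 := Real.log_two_gt_d9
  have hnR : (2 : ℝ) ≤ n := by exact_mod_cast hn
  have hlogn : Real.log 2 ≤ Real.log n := Real.log_le_log (by norm_num) hnR
  have h1 : (Nat.log 2 m : ℝ) * Real.log 2 ≤ 2 * Real.log n := by
    rcases Nat.eq_zero_or_pos m with h0 | hpos
    · subst h0
      simp only [Nat.log_zero_right, Nat.cast_zero, zero_mul]
      have : 0 ≤ Real.log n := Real.log_nonneg (by linarith)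
      linarith
    · have h2 : 2 ^ Nat.log 2 m ≤ n ^ 2 := le_trans (Nat.pow_log_le_self 2 hpos.ne') hm
      have h3 : ((2 : ℝ) ^ Nat.log 2 m) ≤ (n : ℝ) ^ 2 := by exact_mod_cast h2
      have h4 := Real.log_le_log (by positivity) h3
      rw [Real.log_pow, Real.log_pow] at h4
      push_cast at h4
      linarith
  push_cast
  nlinarith

/-- **Containing a forest.** For a forest `H` on `[n]`, `n ≥ 2`, every `p` that is admissible
for the expectation threshold gives a density at most `2 * 10^10 * p * log n` at which `G(n,p)`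
contains a copy of `H` with probability at least `1/2`. -/
theorem forest_contain {n : ℕ} (hn : 2 ≤ n) (H : SimpleGraph (Fin n)) (hH : H.IsAcyclic)
    (p : ℝ) (hp0 : 0 ≤ p)
    (hp : ∀ H' : H.Subgraph, (1 : ℝ) / 2 ≤
      ((⊤ : SimpleGraph (Fin n)).copyCount H'.coe : ℝ) * p ^ H'.edgeSet.ncard) :
    ∃ p' : ℝ, 0 ≤ p' ∧ p' ≤ 1 ∧ (1 : ℝ) / 2 ≤ containProb H p' ∧
      p' ≤ 20000000000 * p * Real.log n := by
  classical
  have hl2 : (0.6931471803 : ℝ) < Real.log 2 := Real.log_two_gt_d9
  have hnR : (2 : ℝ) ≤ n := by exact_mod_cast hn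
  have hlogn : Real.log 2 ≤ Real.log n := Real.log_le_log (by norm_num) hnR
  rcases Nat.eq_zero_or_pos H.edgeSet.ncard with he0 | hepos
  · refine ⟨0, le_rfl, zero_le_one, ?_, ?_⟩
    · have := containProb_zero H he0
      linarith
    · have : 0 ≤ Real.log n := by linarith
      positivity
  have hppos : 0 < p := by
    rcases hp0.lt_or_eq with h | h
    · exact h
    · exfalso
      have h1 := hp (⊤ : H.Subgraph)
      rw [Subgraph.edgeSet_top, ← h, zero_pow hepos.ne', mul_zero] at h1
      linarith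
  have hyp := subgraphsExpected_two_mul H p hp0 hp
  set p₀ : ℝ := min 1 (100000000 * (2 * p)) with hp₀
  have hp₀pos : 0 < p₀ := lt_min zero_lt_one (by positivity)
  have hp₀le : p₀ ≤ 100000000 * (2 * p) := min_le_right _ _
  have hlab : ∀ F : SimpleGraph (Fin n),
      (H.labelledCopyCount F : ℝ) ≤ (n.factorial : ℝ) * p₀ ^ F.edgeSet.ncard := by
    intro F
    have := forestHost_labelled_le_min hH (by positivity) hyp (Fin n) F
    rwa [Fintype.card_fin, Nat.descFactorial_self] at this
  by_cases h16 : 16 * p₀ ≤ 1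
  · set m := H.edgeSet.ncard with hm
    set r := Nat.log 2 m + 1 with hr
    have hmr : m < 2 ^ r := Nat.lt_pow_succ_log_self (by norm_num) m
    have hb : ∀ S ∈ copyFamily H, S.card ≤ m := fun S hS => (copyFamily_card H S hS).le
    have hpp := park_pham (copyFamily H) m r hmr hb p₀ hp₀pos h16
      (copyFamily_cover H p₀ hp₀pos.le hlab)
    rw [← containProb_eq] at hpp
    have hx0 : 0 ≤ 1 - 16 * p₀ := by linarith
    have hx1 : 1 - 16 * p₀ ≤ 1 := by linarith
    have hpow0 : 0 ≤ (1 - 16 * p₀) ^ r := pow_nonneg hx0 r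
    have hpow1 : (1 - 16 * p₀) ^ r ≤ 1 := pow_le_one₀ hx0 hx1
    have hbern : 1 + (r : ℝ) * (-(16 * p₀)) ≤ (1 + -(16 * p₀)) ^ r :=
      one_add_mul_le_pow (by linarith) r
    have hbern' : 1 - (1 - 16 * p₀) ^ r ≤ 16 * r * p₀ := by
      have e : (1 + -(16 * p₀)) = 1 - 16 * p₀ := by ring
      rw [e] at hbern
      linarith
    have hm_le : m ≤ n ^ 2 := by
      obtain ⟨S, hS⟩ := copyFamily_nonempty H
      have h1 : S.card = m := copyFamily_card H S hS
      have h2 : S.card ≤ Fintype.card (Slot n) := card_le_univ S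
      have h3 : Fintype.card (Slot n) = n.choose 2 := by
        have := Sym2.card_subtype_not_diag (α := Fin n)
        rw [Fintype.card_fin] at this
        exact this
      have h4 : n.choose 2 ≤ n ^ 2 := Nat.choose_le_pow n 2
      omega
    have hrb := log_round_bound hn m hm_le
    refine ⟨1 - (1 - 16 * p₀) ^ r, by linarith, by linarith, hpp, ?_⟩
    have hlog0 : 0 ≤ Real.log n := by linarith
    calc 1 - (1 - 16 * p₀) ^ r ≤ 16 * r * p₀ := hbern'
      _ ≤ 16 * (4.33 * Real.log n) * (100000000 * (2 * p)) := by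
          gcongr
      _ ≤ 20000000000 * p * Real.log n := by
          nlinarith [mul_nonneg hp0 hlog0]
  · rw [not_le] at h16
    refine ⟨1, zero_le_one, le_rfl, ?_, ?_⟩
    · have := containProb_one H
      linarith
    · have h1 : 1 < 16 * (100000000 * (2 * p)) := by linarith
      nlinarith [mul_nonneg hp0 (by linarith : (0 : ℝ) ≤ Real.log n - Real.log 2)]

/-- **Q1 for forests.** For every forest `H` on `[n]`, `n ≥ 2`: the threshold for containing
`H` is at most `2 * 10^10 * log n` times the expectation threshold. -/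
theorem forest_threshold_le {n : ℕ} (hn : 2 ≤ n) (H : SimpleGraph (Fin n)) (hH : H.IsAcyclic) :
    sInf {p : ℝ | 0 ≤ p ∧ p ≤ 1 ∧ (1 : ℝ) / 2 ≤ ∑ G : SimpleGraph (Fin n),
        Set.indicator {G | H ⊑ G}
          (fun G => p ^ G.edgeSet.ncard * (1 - p) ^ (n.choose 2 - G.edgeSet.ncard)) G} ≤
      20000000000 * sInf {p : ℝ | 0 ≤ p ∧ p ≤ 1 ∧ ∀ H' : H.Subgraph,
        (1 : ℝ) / 2 ≤
          ((⊤ : SimpleGraph (Fin n)).copyCount H'.coe : ℝ) * p ^ H'.edgeSet.ncard} *
        Real.log n := by
  set Sc : Set ℝ := {p : ℝ | 0 ≤ p ∧ p ≤ 1 ∧ (1 : ℝ) / 2 ≤ ∑ G : SimpleGraph (Fin n),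
        Set.indicator {G | H ⊑ G}
          (fun G => p ^ G.edgeSet.ncard * (1 - p) ^ (n.choose 2 - G.edgeSet.ncard)) G} with hSc
  set SE : Set ℝ := {p : ℝ | 0 ≤ p ∧ p ≤ 1 ∧ ∀ H' : H.Subgraph,
        (1 : ℝ) / 2 ≤
          ((⊤ : SimpleGraph (Fin n)).copyCount H'.coe : ℝ) * p ^ H'.edgeSet.ncard} with hSE
  have hl2 : (0.6931471803 : ℝ) < Real.log 2 := Real.log_two_gt_d9
  have hnR : (2 : ℝ) ≤ n := by exact_mod_cast hn
  have hlogn : Real.log 2 ≤ Real.log n := Real.log_le_log (by norm_num) hnR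
  have hlogpos : 0 < Real.log n := by linarith
  have hbddc : BddBelow Sc := ⟨0, fun p hp => hp.1⟩
  have hneE : SE.Nonempty := by
    refine ⟨1, zero_le_one, le_rfl, fun H' => ?_⟩
    have h1 : (1 : ℝ) ≤ ((⊤ : SimpleGraph (Fin n)).copyCount H'.coe : ℝ) := by
      exact_mod_cast one_le_copyCount_top_coe H'
    rw [one_pow, mul_one]
    linarith
  have h1 : ∀ p ∈ SE, sInf Sc / (20000000000 * Real.log n) ≤ p := by
    intro p hp
    obtain ⟨p', hp'0, hp'1, hp'c, hp'le⟩ := forest_contain hn H hH p hp.1 hp.2.2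
    have hmem : p' ∈ Sc := ⟨hp'0, hp'1, hp'c⟩
    have h2 := csInf_le hbddc hmem
    rw [div_le_iff₀ (by positivity)]
    calc sInf Sc ≤ p' := h2
      _ ≤ 20000000000 * p * Real.log n := hp'le
      _ = p * (20000000000 * Real.log n) := by ring
  have h2 := le_csInf hneE h1
  rw [div_le_iff₀ (by positivity)] at h2
  calc sInf Sc ≤ sInf SE * (20000000000 * Real.log n) := h2
    _ = 20000000000 * sInf SE * Real.log n := by ring

end Vale.Agent.KK
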